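import Vale.Agent.P181.TQ.Reduce
import Vale.Agent.P181.H983.TallGap
import Vale.Agent.P181.H241.Near
import Vale.Agent.P181.H536.HW
import Vale.Agent.P181.H534.ThinHW
import Vale.Agent.P181.H54.Propagate
import Vale.Agent.P181.H530.Inj

set_option autoImplicit false

/-!
# P181, a = 6: the reductions

`Need b lam` lists the shapes which are not settled by the theorems for general `a`.
-/

namespace Vale.Agent.P181.H558

universe u

open Vale.Agent.P181 Vale.Agent.P181.H280 Vale.Agent.P181.H54

/-- Foulkes' inequality for `a = 6`, `dim V = 6`. -/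
def Fo (b : ℕ) (lam : Fin 6 → ℕ) : Prop := plethMult 6 b 6 lam ≤ plethMult b 6 6 lam

/-- The largest last row which is not settled by the theorems for tall shapes. -/
def maxLast (b : ℕ) : ℕ :=
  if b = 7 then 1 else if b = 8 ∨ b = 9 then 3 else if b = 12 then 0 else if b = 13 then 3
  else if b = 18 then 2 else if b = 19 then 4 else 5

/-- The shapes which have to be checked for the pair `(6, b)`: partitions of `6 b` with at most six
rows, second row at least `b`, third row at least `2`, at least `b - 4` boxes below row two, last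
row at most `maxLast b`, and fifth row at most `1` if `b = 12`. -/
def Need (b : ℕ) (lam : Fin 6 → ℕ) : Prop :=
  Antitone lam ∧ ∑ i, lam i = 6 * b ∧ b ≤ lam 1 ∧ 2 ≤ lam 2 ∧
    b ≤ lam 2 + lam 3 + lam 4 + lam 5 + 4 ∧ lam 5 ≤ maxLast b ∧ (b = 12 → lam 4 ≤ 1)

lemma fo_propagate {b : ℕ} (lam : Fin 6 → ℕ) (h1 : ∀ i, i ≠ 0 → lam i ≤ b)
    (h6 : 6 ≤ lam 0)
    (h : Fo b (fun i => lam i - if i = 0 then 6 else 0)) : Fo (b + 1) lam := by
  have h2 := (plethMult_stab_iter 6 b (fun i : Fin 6 => lam i - if i = 0 then 6 else 0)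
    (fun i hi => by
      show lam i - (if i = 0 then 6 else 0) ≤ b
      rw [if_neg hi, Nat.sub_zero]
      exact h1 i hi) 1).trans (h.trans (plethMult_mono_iter 6 b _ 1))
  have h3 : addFirst (fun i : Fin 6 => lam i - if i = 0 then 6 else 0) (6 * 1) = lam := by
    funext i
    show (lam i - if i = 0 then 6 else 0) + (if i = 0 then 6 * 1 else 0) = lam i
    by_cases hi : i = 0
    · subst hi
      simp only [if_true]
      omega
    · simp only [hi, if_false]
      omega
  rw [h3] at h2
  exact h2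

lemma fo_column {b : ℕ} (lam : Fin 6 → ℕ) (h6 : ∀ i, 6 ≤ lam i) (h : Fo b (fun i => lam i - 6)) :
    Fo (b + 6) lam := by
  refine TQ.col_sub (a := 6) (b := b) (c := 6) (n := 6) (by omega) le_rfl ⟨3, rfl⟩ le_rfl lam
    (fun i _ => h6 i) ?_
  have h1 : (fun i : Fin 6 => lam i - if (i : ℕ) < 6 then 6 else 0) = fun i => lam i - 6 := by
    funext i
    rw [if_pos i.2]
  rw [h1]
  exact h

lemma fo_tall {b : ℕ} (lam : Fin 6 → ℕ) (hb : 7 ≤ b) (hanti : Antitone lam)
    (h : maxLast b < lam 5) (hb12 : b = 12 → 2 ≤ lam 4 ∨ 1 ≤ lam 5)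
    (ih : ∀ mu : Fin 6 → ℕ, 6 ≤ b - 6 → Fo (b - 6) mu) : Fo b lam := by
  have hall : ∀ i : Fin 6, lam 5 ≤ lam i := fun i => hanti (Fin.le_last i)
  by_cases h0 : 6 ≤ lam 5 ∧ 12 ≤ b
  · have h1 := fo_column (b := b - 6) lam (fun i => h0.1.trans (hall i)) (ih _ (by omega))
    rwa [Nat.sub_add_cancel (by omega)] at h1
  · by_cases h7 : b = 7
    · subst h7
      simp only [maxLast, if_true] at h
      exact H983.tall_oneE 6 7 6 (by omega) (by omega) le_rfl ⟨6, rfl⟩ (Or.inl ⟨3, rfl⟩) lam
        (fun i _ => by have := hall i; omega)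
    by_cases h8 : b = 8
    · subst h8
      simp [maxLast] at h
      exact H605.tall 6 8 6 (by omega) (by omega) le_rfl lam
        (fun i _ => by have := hall i; omega)
    by_cases h9 : b = 9
    · subst h9
      simp [maxLast] at h
      exact H983.tall_oneE 6 9 6 (by omega) (by omega) le_rfl ⟨7, rfl⟩ (Or.inl ⟨3, rfl⟩) lam
        (fun i _ => by have := hall i; omega)
    by_cases h10 : b = 10
    · subst h10
      simp [maxLast] at h
      exact H605.tall 6 10 6 (by omega) (by omega) le_rfl lam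
        (fun i _ => by have := hall i; omega)
    by_cases h11 : b = 11
    · subst h11
      simp [maxLast] at h
      exact H983.tall_oneE 6 11 6 (by omega) (by omega) le_rfl ⟨8, rfl⟩ (Or.inl ⟨3, rfl⟩) lam
        (fun i _ => by have := hall i; omega)
    by_cases h12 : b = 12
    · subst h12
      simp [maxLast] at h
      exact plethMult_le (a := 6) (q := 2) (n := 6) (by omega) le_rfl le_rfl lam
        (fun i _ => by have := hall i; omega)
    by_cases h13 : b = 13
    · subst h13
      simp [maxLast] at h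
      refine TQ.tallF 6 13 6 (by omega) (by omega) le_rfl lam (by norm_num) (Or.inr ⟨by norm_num,
        by omega⟩) (fun i _ => ?_) (Or.inl (by norm_num))
      have := hall i
      norm_num
      omega
    by_cases h18 : b = 18
    · subst h18
      simp [maxLast] at h
      exact plethMult_le (a := 6) (q := 3) (n := 6) (by omega) (by omega) le_rfl lam
        (fun i _ => by have := hall i; omega)
    by_cases h19 : b = 19
    · subst h19
      simp [maxLast] at h
      refine TQ.tallF 6 19 6 (by omega) (by omega) le_rfl lam (by norm_num) (Or.inr ⟨by norm_num,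
        by omega⟩) (fun i _ => ?_) (Or.inl (by norm_num))
      have := hall i
      norm_num
      omega
    · simp only [maxLast, h7, h8, h9, h12, h13, h18, h19, if_false, or_self] at h
      omega

lemma fo_near (lam : Fin 6 → ℕ) (hanti : Antitone lam) (h : 2 ≤ lam 4) : Fo 12 lam := by
  have h1 : ∀ i : Fin 6, (i : ℕ) < 6 - 1 → 2 ≤ lam i := fun i hi =>
    h.trans (hanti (by rw [Fin.le_def]; show (i : ℕ) ≤ 4; omega))
  have hinj := fun x hx h0 => H241.near (a := 6) (n := 6) (by omega) (by omega) lam hanti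
    (Or.inl h1) x hx h0
  exact finrank_le_of_inj (powMap 6 2 (Fin 6 → ℂ)) _ _ (fun x hx => powMap_hwSpace lam x hx) hinj

/-- **Reduction for `a = 6`, `dim V = 6`.** If Foulkes' inequality holds for the pairs `(6, b)` with
`b ≥ B` and for the needed shapes with `7 ≤ b < B`, it holds for all `b ≥ 6`. -/
theorem fo_all (B : ℕ) (hB : ∀ b, B ≤ b → ∀ lam, Antitone lam → ∑ i, lam i = 6 * b → Fo b lam)
    (H : ∀ b, 7 ≤ b → b < B → ∀ lam, Need b lam → Fo b lam) :
    ∀ b, 6 ≤ b → ∀ lam, Fo b lam := by
  intro b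
  induction b using Nat.strong_induction_on with
  | _ b ih =>
    intro h6 lam
    by_cases h0 : plethMult 6 b 6 lam = 0
    · show plethMult 6 b 6 lam ≤ _
      rw [h0]
      exact Nat.zero_le _
    obtain ⟨hanti, hsum, -⟩ := H530.zero_stmt 6 b 6 lam h0
    rcases Nat.eq_or_lt_of_le h6 with rfl | h7
    · exact le_rfl
    by_cases hbB : B ≤ b
    · exact hB b hbB lam hanti hsum
    have hs : lam 0 + lam 1 + lam 2 + lam 3 + lam 4 + lam 5 = 6 * b := by
      rw [← hsum, Fin.sum_univ_six]
    have a01 : lam 1 ≤ lam 0 := hanti (by decide)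
    have a12 : lam 2 ≤ lam 1 := hanti (by decide)
    have a23 : lam 3 ≤ lam 2 := hanti (by decide)
    have a34 : lam 4 ≤ lam 3 := hanti (by decide)
    have a45 : lam 5 ≤ lam 4 := hanti (by decide)
    by_cases c1 : b ≤ lam 1
    · by_cases c2 : 2 ≤ lam 2
      · by_cases c3 : b ≤ lam 2 + lam 3 + lam 4 + lam 5 + 4
        · by_cases c4 : lam 5 ≤ maxLast b
          · by_cases c5 : b = 12 → lam 4 ≤ 1
            · exact H b h7 (by omega) lam ⟨hanti, hsum, c1, c2, c3, c4, c5⟩
            · push Not at c5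
              obtain ⟨rfl, c5⟩ := c5
              exact fo_near lam hanti (by omega)
          · refine fo_tall lam h7 hanti (by omega) (fun h => Or.inr (by omega)) (fun mu h => ?_)
            exact ih (b - 6) (by omega) h mu
        · refine H536.plethMult_le (N := 6 - 1) (by omega) (by omega) lam ?_
          simp only [Fin.sum_univ_four]
          show lam 2 + lam 3 + lam 4 + lam 5 + _ ≤ _
          omega
      · have h2 : ∀ i : Fin 4, lam i.succ.succ ≤ 1 := fun i =>
          (hanti (show (2 : Fin 6) ≤ i.succ.succ from by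
            rw [Fin.le_def]; simp only [Fin.val_succ]; show 2 ≤ _; omega)).trans (by omega)
        exact (H534.plethMult_eq (n := 4) lam h2).le
    · obtain ⟨b', rfl⟩ : ∃ b', b = b' + 1 := ⟨b - 1, by omega⟩
      refine fo_propagate lam (fun i hi => ?_) (by omega) (ih b' (by omega) (by omega) _)
      have h3 : lam i ≤ lam 1 := hanti (by
        rw [Fin.le_def]
        show 1 ≤ (i : ℕ)
        have : (i : ℕ) ≠ 0 := fun h => hi (Fin.ext h)
        omega)
      omega

/-- All `V = ℂ^n`. -/
theorem six_all (B : ℕ) (hB : ∀ b, B ≤ b → ∀ lam, Antitone lam → ∑ i, lam i = 6 * b → Fo b lam)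
    (H : ∀ b, 7 ≤ b → b < B → ∀ lam, Need b lam → Fo b lam) (b : ℕ) (hb : 6 ≤ b) (n : ℕ)
    (lam : Fin n → ℕ) : plethMult 6 b n lam ≤ plethMult b 6 n lam :=
  T7.all_n H530.pad_stmt H530.zero_stmt (fun mu _ _ => fo_all B hB H b hb mu) n lam

/-- The literal form of Foulkes' conjecture for `a = 6` from the checks. -/
theorem six_inj (B : ℕ) (hB : ∀ b, B ≤ b → ∀ lam, Antitone lam → ∑ i, lam i = 6 * b → Fo b lam)
    (H : ∀ b, 7 ≤ b → b < B → ∀ lam, Need b lam → Fo b lam) (b : ℕ) (hb : 6 ≤ b) :
    H530.FoulkesInjection.{u} 6 b :=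
  H530.foulkesInjection (fun mu _ _ => fo_all B hB H b hb mu)

/-- The pairs `(6, b)` with `b ≥ 25`. -/
theorem fo_big (b : ℕ) (hb : 25 ≤ b) (lam : Fin 6 → ℕ) : Fo b lam :=
  finrank_le_of_inj (foulkesHowe 6 b (Fin 6 → ℂ)) _ _ (fun x hx => H536.foulkesHowe_hwSpace lam x hx)
    (fun x _ h0 => (injective_iff_map_eq_zero _).1 (foulkesHowe_injective (by omega)) x h0)

end Vale.Agent.P181.H558
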