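import Vale.Agent.P181.H788.Prog

set_option autoImplicit false

/-!
# P181, `a = 6`: the left side, plain version (kernel part)

Levels `1, ..., 6` of six letters of degree `b`, with exact division by the level. `L = S R`,
`K = w L`; `v1, ..., v6` are the offsets of the divisions, `u1, ..., u5` the exponents of the digit
tests.
-/

noncomputable section

namespace Vale.Agent.P181.H558.LP

open Vale.Agent.P181.H788

/-- the digit vector `1, ..., 1` -/
def onz (w L : Nat) : Nat :=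
  Nat.div (Nat.sub (Nat.pow 2 (Nat.mul w L)) 1) (Nat.sub (Nat.pow 2 w) 1)

/-- exact division of all signed digits by `N` -/
def dvz (w L N v u : Nat) : Nat :=
  Nat.mod (Nat.add (Nat.div (Nat.mod (Nat.add u (Nat.mul N (Nat.mul (Nat.pow 2 v) (onz w L))))
    (Nat.pow 2 (Nat.mul w L))) N)
    (Nat.sub (Nat.pow 2 (Nat.mul w L)) (Nat.mul (Nat.pow 2 v) (onz w L))))
    (Nat.pow 2 (Nat.mul w L))

/-- the test `- 2 ^ v ≤ d < 2 ^ v` for all digits `d` -/
def dtz (w L v u : Nat) : Bool :=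
  Nat.beq (Nat.land (Nat.mod (Nat.add u (Nat.mul (Nat.pow 2 v) (onz w L)))
    (Nat.pow 2 (Nat.mul w L))) (Nat.mul (Nat.sub (Nat.pow 2 w) (Nat.pow 2 (Nat.succ v)))
      (onz w L))) 0

def P0 (w S K : Nat) : Tb := fun x y z => row0 w S K x y z

def P1 (w S K L b v1 : Nat) : Tb := fun x y z => dvz w L 1 v1 (pie w S K b (P0 w S K) x y z)

def P2 (w S K L b v1 v2 : Nat) : Tb := fun x y z => dvz w L 2 v2
  (Nat.add (pie w S K b (P1 w S K L b v1) x y z) (ctr w S K 2 b (P0 w S K) x y z))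

def P3 (w S K L b v1 v2 v3 : Nat) : Tb := fun x y z => dvz w L 3 v3
  (Nat.add (pie w S K b (P2 w S K L b v1 v2) x y z)
    (Nat.add (ctr w S K 2 b (P1 w S K L b v1) x y z) (ctr w S K 3 b (P0 w S K) x y z)))

def P4 (w S K L b v1 v2 v3 v4 : Nat) : Tb := fun x y z => dvz w L 4 v4
  (Nat.add (pie w S K b (P3 w S K L b v1 v2 v3) x y z)
    (Nat.add (Nat.add (ctr w S K 2 b (P2 w S K L b v1 v2) x y z)
      (ctr w S K 3 b (P1 w S K L b v1) x y z)) (ctr w S K 4 b (P0 w S K) x y z)))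

def P5 (w S K L b v1 v2 v3 v4 v5 : Nat) : Tb := fun x y z => dvz w L 5 v5
  (Nat.add (pie w S K b (P4 w S K L b v1 v2 v3 v4) x y z)
    (Nat.add (Nat.add (Nat.add (ctr w S K 2 b (P3 w S K L b v1 v2 v3) x y z)
      (ctr w S K 3 b (P2 w S K L b v1 v2) x y z)) (ctr w S K 4 b (P1 w S K L b v1) x y z))
      (ctr w S K 5 b (P0 w S K) x y z)))

def P6 (w S K L b v1 v2 v3 v4 v5 v6 : Nat) : Tb := fun x y z => dvz w L 6 v6
  (Nat.add (pie w S K b (P5 w S K L b v1 v2 v3 v4 v5) x y z)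
    (Nat.add (Nat.add (Nat.add (Nat.add (ctr w S K 2 b (P4 w S K L b v1 v2 v3 v4) x y z)
      (ctr w S K 3 b (P3 w S K L b v1 v2 v3) x y z)) (ctr w S K 4 b (P2 w S K L b v1 v2) x y z))
      (ctr w S K 5 b (P1 w S K L b v1) x y z)) (ctr w S K 6 b (P0 w S K) x y z)))

/-- `f x y z` for all `z < y < x < X1` with `z < Z1` and `4 x + y + z ≤ C` -/
def allR (X1 C Z1 : Nat) (f : Nat → Nat → Nat → Bool) : Bool :=
  allB (fun x => fb x fun x => allB (fun y => fb y fun y => allB (fun z => fb z fun z =>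
    @Bool.rec (fun _ => Bool) true (f x y z)
      (Nat.ble (Nat.add (Nat.add (Nat.mul 4 x) y) z) C)) (mn y Z1)) x) X1

/-- the digit tests of the levels `1, ..., 5` -/
def tst (w S K L b v1 v2 v3 v4 v5 u1 u2 u3 u4 u5 X1 C Z1 : Nat) : Bool :=
  bc (allR X1 C Z1 fun x y z => dtz w L u1 (P1 w S K L b v1 x y z))
    (bc (allR X1 C Z1 fun x y z => dtz w L u2 (P2 w S K L b v1 v2 x y z))
      (bc (allR X1 C Z1 fun x y z => dtz w L u3 (P3 w S K L b v1 v2 v3 x y z))
        (bc (allR X1 C Z1 fun x y z => dtz w L u4 (P4 w S K L b v1 v2 v3 v4 x y z))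
          (allR X1 C Z1 fun x y z => dtz w L u5 (P5 w S K L b v1 v2 v3 v4 v5 x y z)))))

end Vale.Agent.P181.H558.LP
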