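import Vale.Agent.P181.H558.LeftP

set_option autoImplicit false

/-!
# P181, `a = 6`: the plain left tables of the pairs `(6, b)`, `6 ≤ b ≤ 15` (kernel part)

`LPb` is the table, `LTb` its digit tests; `S = 6 b + 16`, `R = 2 b + 4`.
-/

noncomputable section

namespace Vale.Agent.P181.H558.LP

open Vale.Agent.P181.H788

def LP6 : Tb := P6 16 52 13312 832 6 9 10 10 11 11 12

def LT6 : Bool := tst 16 52 13312 832 6 9 10 10 11 11 1 1 2 3 5 12 45 2

def LP7 : Tb := P6 18 58 18792 1044 7 10 11 11 11 12 14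

def LT7 : Bool := tst 18 58 18792 1044 7 10 11 11 11 12 1 1 2 3 6 13 51 2

def LP8 : Tb := P6 19 64 24320 1280 8 11 11 12 12 13 15

def LT8 : Bool := tst 19 64 24320 1280 8 11 11 12 12 13 1 1 2 4 6 15 57 2

def LP9 : Tb := P6 20 70 30800 1540 9 11 12 12 13 14 16

def LT9 : Bool := tst 20 70 30800 1540 9 11 12 12 13 14 1 1 2 4 7 16 63 2

def LP10 : Tb := P6 22 76 40128 1824 10 12 13 13 13 14 18

def LT10 : Bool := tst 22 76 40128 1824 10 12 13 13 13 14 1 1 2 4 8 18 69 2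

def LP11 : Tb := P6 23 82 49036 2132 11 13 13 13 14 16 19

def LT11 : Bool := tst 23 82 49036 2132 11 13 13 13 14 16 1 1 2 5 9 19 75 2

def LP12 : Tb := P6 24 88 59136 2464 12 13 14 14 14 16 20

def LT12 : Bool := tst 24 88 59136 2464 12 13 14 14 14 16 1 1 2 5 9 21 81 2

def LP13 : Tb := P6 25 94 70500 2820 13 14 14 14 15 17 21

def LT13 : Bool := tst 25 94 70500 2820 13 14 14 14 15 17 1 1 2 5 10 22 87 2

def LP14 : Tb := P6 25 100 80000 3200 14 14 15 15 15 17 21

def LT14 : Bool := tst 25 100 80000 3200 14 14 15 15 15 17 1 1 2 5 10 24 93 2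

def LP15 : Tb := P6 27 106 97308 3604 15 14 15 15 16 18 23

def LT15 : Bool := tst 27 106 97308 3604 15 14 15 15 16 18 1 1 2 6 11 25 99 2

end Vale.Agent.P181.H558.LP
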