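import Vale.Agent.P181.H558.LeftP
import Vale.Agent.P181.H51.Level2

set_option autoImplicit false

/-!
# P181, `a = 6`: the left side, plain version (soundness)
-/

namespace Vale.Agent.P181.H558.LP

open Finset Vale.Agent.P181 Vale.Agent.P181.H280 Vale.Agent.P181.H605 Vale.Agent.P181.H788
open Vale.Agent.P181.H51

lemma onz_eq (w L : ℕ) : onz w L = ones w L := rfl

lemma dvz_eq (w L N v u : ℕ) : dvz w L N v u = dvs w L N v u := rfl

lemma dtz_eq (w L v u : ℕ) : dtz w L v u = dtest w L v u := rfl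

/-- The bounds of the digit tests. -/
def bd (u : ℕ → ℕ) (j : ℕ) : ℕ := if j = 0 then 1 else 2 ^ u j

/-- The a priori bound of level `N`. -/
def bp (c : ℕ) (u : ℕ → ℕ) (N : ℕ) : ℕ := c * (∑ j ∈ range N, bd u j) / N

/-- **Soundness of the levels of the left side.** -/
theorem left_levels {w S R b c : ℕ} {Rg : ℕ → ℕ → ℕ → Prop} (hd : Down Rg) (hS : dg 6 b < S)
    (hRS : R ≤ S) (hc : (b + 5).choose b = c) (T : ℕ → Tb) (v u : ℕ → ℕ)
    (h0 : ∀ x y z, T 0 x y z = row0 w S (w * (S * R)) x y z)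
    (hrec : ∀ N, 0 < N → N ≤ 6 → ∀ x y z, T N x y z =
      dvs w (S * R) N (v N) (pie w S (w * (S * R)) b (T (N - 1)) x y z +
        ∑ k ∈ range (N - 1), ctr w S (w * (S * R)) (k + 2) b (T (N - (k + 2))) x y z))
    (hnum : ∀ N, 0 < N → N ≤ 6 → bp c u N < 2 ^ v N ∧ N * 2 ^ (v N + 1) ≤ 2 ^ w)
    (hu : ∀ N, 0 < N → N ≤ 5 → u N + 1 ≤ w)
    (htest : ∀ N, 0 < N → N ≤ 5 → ∀ x y z, z < y → y < x → Rg x y z →
      dtest w (S * R) (u N) (T N x y z) = true) :
    SOn w S R 6 b Rg (T 6) ∧ BOn S R 6 b Rg (bp c u 6) ∧ bp c u 6 < 2 ^ (w - 1) := by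
  have hvw : ∀ N, 0 < N → N ≤ 6 → bp c u N < 2 ^ (w - 1) := by
    intro N h1 h2
    obtain ⟨h3, h4⟩ := hnum N h1 h2
    have h5 : 2 ^ (v N + 1) ≤ 2 ^ w := (Nat.le_mul_of_pos_left _ h1).trans h4
    have h6 : v N + 1 ≤ w := (Nat.pow_le_pow_iff_right (by norm_num)).1 h5
    exact lt_of_lt_of_le h3 (Nat.pow_le_pow_right (by norm_num) (by omega))
  have key : ∀ N, N ≤ 6 → SOn w S R N b Rg (T N) ∧ (N ≤ 5 → BOn S R N b Rg (bd u N)) ∧
      (0 < N → BOn S R N b Rg (bp c u N)) := by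
    intro N
    induction N using Nat.strong_induction_on with
    | _ N ih =>
      intro hN
      rcases Nat.eq_zero_or_pos N with rfl | hpos
      · refine ⟨?_, fun _ => ?_, fun h => absurd h (lt_irrefl _)⟩
        · intro x y z h1 h2 h3
          rw [h0]
          exact level0 w S R b Rg x y z h1 h2 h3
        · rw [bd, if_pos rfl]
          exact BOn_zero S R b Rg
      · have hSN : dg N b < S := by
          refine lt_of_le_of_lt ?_ hS
          unfold dg
          exact Nat.add_le_add_left (Nat.mul_le_mul_right _ hN) _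
        have hB : BOn S R N b Rg (bp c u N) := by
          refine apriori hd hpos (bd u) (fun j hj => (ih j hj (by omega)).2.1 (by omega)) ?_
          rw [hc, bp]
          have h1 := Nat.div_add_mod (c * ∑ j ∈ range N, bd u j) N
          have h2 := Nat.mod_lt (c * ∑ j ∈ range N, bd u j) hpos
          omega
        obtain ⟨h3, h4⟩ := hnum N hpos hN
        have hSOn : SOn w S R N b Rg (T N) := by
          refine level hd hpos hSN hRS T (fun j hj => (ih j hj (by omega)).1) ?_ hB h3 h4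
            (fun x y z _ _ _ => hrec N hpos hN x y z)
          intro x y z
          rcases Nat.eq_zero_or_pos (N - 1) with h5 | h5
          · rw [h5, h0]
            exact row0_lt _ _ _ _ _ _
          · rw [hrec (N - 1) h5 (by omega)]
            exact (dvs_lt _ _ _ _ _).le
        refine ⟨hSOn, fun h5 => ?_, fun _ => hB⟩
        have h6 := btest (v := u N) hSOn hSN hRS hB (hvw N hpos hN) (hu N hpos h5)
          (htest N hpos h5)
        rwa [bd, if_neg (by omega)]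
  exact ⟨(key 6 le_rfl).1, (key 6 le_rfl).2.2 (by norm_num), hvw 6 (by norm_num) le_rfl⟩

/-- The rows of the left tables. -/
def Rg (b : ℕ) (x y z : ℕ) : Prop := z ≤ 1 ∧ 4 * x + y + z ≤ 6 * b + 9

lemma Rg_down (b : ℕ) : Down (Rg b) := by
  intro x y z x' y' z' h hx hy hz
  exact ⟨by have := h.1; omega, by have := h.2; omega⟩

lemma allR_sound {X1 C Z1 : ℕ} {f : ℕ → ℕ → ℕ → Bool} (h : allR X1 C Z1 f = true) {x y z : ℕ}
    (hx : x < X1) (hyx : y < x) (hzy : z < y) (hz : z < Z1) (hC : 4 * x + y + z ≤ C) :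
    f x y z = true := by
  unfold allR at h
  rw [allB_iff] at h
  have h4 := h x hx
  rw [fb_eq, allB_iff] at h4
  have h5 := h4 y hyx
  rw [fb_eq, H605.mn_eq, allB_iff] at h5
  have h6 := h5 z (lt_min hzy hz)
  rw [fb_eq] at h6
  have h7 : Nat.ble (Nat.add (Nat.add (Nat.mul 4 x) y) z) C = true := by
    apply Nat.ble_eq_true_of_le
    exact hC
  rw [h7] at h6
  exact h6

lemma bc_true {p q : Bool} (h : bc p q = true) : p = true ∧ q = true := by
  cases p
  · exact absurd h Bool.false_ne_true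
  · exact ⟨rfl, h⟩

/-- the levels as a sequence -/
noncomputable def PT (w S K L b v1 v2 v3 v4 v5 v6 : ℕ) : ℕ → Tb
  | 0 => P0 w S K
  | 1 => P1 w S K L b v1
  | 2 => P2 w S K L b v1 v2
  | 3 => P3 w S K L b v1 v2 v3
  | 4 => P4 w S K L b v1 v2 v3 v4
  | 5 => P5 w S K L b v1 v2 v3 v4 v5
  | _ => P6 w S K L b v1 v2 v3 v4 v5 v6

/-- a sequence with six given values -/
def sq (a1 a2 a3 a4 a5 a6 : ℕ) : ℕ → ℕ
  | 1 => a1
  | 2 => a2
  | 3 => a3
  | 4 => a4
  | 5 => a5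
  | 6 => a6
  | _ => 0

/-- the numerical conditions -/
def num (c w v1 v2 v3 v4 v5 v6 u1 u2 u3 u4 u5 : ℕ) : Prop :=
  (∀ N ∈ Finset.Icc 1 6, bp c (sq u1 u2 u3 u4 u5 0) N < 2 ^ sq v1 v2 v3 v4 v5 v6 N ∧
    N * 2 ^ (sq v1 v2 v3 v4 v5 v6 N + 1) ≤ 2 ^ w) ∧
  (∀ N ∈ Finset.Icc 1 5, sq u1 u2 u3 u4 u5 0 N + 1 ≤ w)

/-- **Soundness of the plain left table.** -/
theorem left_sound {w S R K L b c v1 v2 v3 v4 v5 v6 u1 u2 u3 u4 u5 X1 C Z1 : ℕ}
    (hS : 15 + 6 * b < S) (hRS : R ≤ S) (hL : L = S * R) (hK : K = w * (S * R))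
    (hc : (b + 5).choose b = c) (hX : 6 * b + 9 < 4 * X1) (hC : C = 6 * b + 9) (hZ : Z1 = 2)
    (hn : num c w v1 v2 v3 v4 v5 v6 u1 u2 u3 u4 u5)
    (ht : tst w S K L b v1 v2 v3 v4 v5 u1 u2 u3 u4 u5 X1 C Z1 = true) :
    SOn w S R 6 b (Rg b) (P6 w S K L b v1 v2 v3 v4 v5 v6) ∧
      BOn S R 6 b (Rg b) (bp c (sq u1 u2 u3 u4 u5 0) 6) ∧
      bp c (sq u1 u2 u3 u4 u5 0) 6 < 2 ^ (w - 1) := by
  subst hL hK hC hZ
  obtain ⟨t1, ht⟩ := bc_true ht
  obtain ⟨t2, ht⟩ := bc_true ht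
  obtain ⟨t3, ht⟩ := bc_true ht
  obtain ⟨t4, t5⟩ := bc_true ht
  refine left_levels (Rg_down b) hS hRS hc (PT w S (w * (S * R)) (S * R) b v1 v2 v3 v4 v5 v6)
    (sq v1 v2 v3 v4 v5 v6) (sq u1 u2 u3 u4 u5 0) (fun _ _ _ => rfl) ?_ ?_ ?_ ?_
  · intro N h1 h6 x y z
    obtain rfl | rfl | rfl | rfl | rfl | rfl : N = 1 ∨ N = 2 ∨ N = 3 ∨ N = 4 ∨ N = 5 ∨ N = 6 := by
      omega
    · rfl
    · simp only [Nat.reduceSub, Finset.sum_range_succ, Finset.range_zero, Finset.sum_empty]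
      rw [zero_add]
      rfl
    · simp only [Nat.reduceSub, Finset.sum_range_succ, Finset.range_zero, Finset.sum_empty]
      rw [zero_add]
      rfl
    · simp only [Nat.reduceSub, Finset.sum_range_succ, Finset.range_zero, Finset.sum_empty]
      rw [zero_add]
      rfl
    · simp only [Nat.reduceSub, Finset.sum_range_succ, Finset.range_zero, Finset.sum_empty]
      rw [zero_add]
      rfl
    · simp only [Nat.reduceSub, Finset.sum_range_succ, Finset.range_zero, Finset.sum_empty]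
      rw [zero_add]
      rfl
  · intro N h1 h6
    exact hn.1 N (Finset.mem_Icc.2 ⟨h1, h6⟩)
  · intro N h1 h5
    exact hn.2 N (Finset.mem_Icc.2 ⟨h1, h5⟩)
  · intro N h1 h5 x y z hzy hyx hR
    have hx : x < X1 := by have := hR.2; omega
    have hz : z < 2 := by have := hR.1; omega
    obtain rfl | rfl | rfl | rfl | rfl : N = 1 ∨ N = 2 ∨ N = 3 ∨ N = 4 ∨ N = 5 := by omega
    · exact allR_sound t1 hx hyx hzy hz hR.2
    · exact allR_sound t2 hx hyx hzy hz hR.2
    · exact allR_sound t3 hx hyx hzy hz hR.2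
    · exact allR_sound t4 hx hyx hzy hz hR.2
    · exact allR_sound t5 hx hyx hzy hz hR.2

end Vale.Agent.P181.H558.LP

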