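import Vale.Agent.P181.H558.LeftPD
import Vale.Agent.P181.H558.LeftPS

set_option autoImplicit false

/-!
# P181, `a = 6`: the plain left tables of the pairs `(6, b)`, `6 ≤ b ≤ 15` (soundness)
-/

namespace Vale.Agent.P181.H558.LP

open Vale.Agent.P181.H788 Vale.Agent.P181.H51

theorem sound6 (h : LT6 = true) : SOn 16 52 16 6 6 (Rg 6) LP6 ∧
    BOn 52 16 6 6 (Rg 6) 3773 :=
  (left_sound (c := 462) (by norm_num) (by norm_num) (by norm_num) (by norm_num) (by decide) (by norm_num)
    (by norm_num) rfl (by unfold num; decide) h).imp_right fun h1 => h1.1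

theorem sound7 (h : LT7 = true) : SOn 18 58 18 6 7 (Rg 7) LP7 ∧
    BOn 58 18 6 7 (Rg 7) 10692 :=
  (left_sound (c := 792) (by norm_num) (by norm_num) (by norm_num) (by norm_num) (by decide) (by norm_num)
    (by norm_num) rfl (by unfold num; decide) h).imp_right fun h1 => h1.1

theorem sound8 (h : LT8 = true) : SOn 19 64 20 6 8 (Rg 8) LP8 ∧
    BOn 64 20 6 8 (Rg 8) 19090 :=
  (left_sound (c := 1287) (by norm_num) (by norm_num) (by norm_num) (by norm_num) (by decide) (by norm_num)
    (by norm_num) rfl (by unfold num; decide) h).imp_right fun h1 => h1.1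

theorem sound9 (h : LT9 = true) : SOn 20 70 22 6 9 (Rg 9) LP9 ∧
    BOn 70 22 6 9 (Rg 9) 51051 :=
  (left_sound (c := 2002) (by norm_num) (by norm_num) (by norm_num) (by norm_num) (by decide) (by norm_num)
    (by norm_num) rfl (by unfold num; decide) h).imp_right fun h1 => h1.1

theorem sound10 (h : LT10 = true) : SOn 22 76 24 6 10 (Rg 10) LP10 ∧
    BOn 76 24 6 10 (Rg 10) 140640 :=
  (left_sound (c := 3003) (by norm_num) (by norm_num) (by norm_num) (by norm_num) (by decide) (by norm_num)
    (by norm_num) rfl (by unfold num; decide) h).imp_right fun h1 => h1.1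

theorem sound11 (h : LT11 = true) : SOn 23 82 26 6 11 (Rg 11) LP11 ∧
    BOn 82 26 6 11 (Rg 11) 402584 :=
  (left_sound (c := 4368) (by norm_num) (by norm_num) (by norm_num) (by norm_num) (by decide) (by norm_num)
    (by norm_num) rfl (by unfold num; decide) h).imp_right fun h1 => h1.1

theorem sound12 (h : LT12 = true) : SOn 24 88 28 6 12 (Rg 12) LP12 ∧
    BOn 88 28 6 12 (Rg 12) 570327 :=
  (left_sound (c := 6188) (by norm_num) (by norm_num) (by norm_num) (by norm_num) (by decide) (by norm_num)
    (by norm_num) rfl (by unfold num; decide) h).imp_right fun h1 => h1.1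

theorem sound13 (h : LT13 = true) : SOn 25 94 30 6 13 (Rg 13) LP13 ∧
    BOn 94 30 6 13 (Rg 13) 1520820 :=
  (left_sound (c := 8568) (by norm_num) (by norm_num) (by norm_num) (by norm_num) (by decide) (by norm_num)
    (by norm_num) rfl (by unfold num; decide) h).imp_right fun h1 => h1.1

theorem sound14 (h : LT14 = true) : SOn 25 100 32 6 14 (Rg 14) LP14 ∧
    BOn 100 32 6 14 (Rg 14) 2063970 :=
  (left_sound (c := 11628) (by norm_num) (by norm_num) (by norm_num) (by norm_num) (by decide) (by norm_num)
    (by norm_num) rfl (by unfold num; decide) h).imp_right fun h1 => h1.1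

theorem sound15 (h : LT15 = true) : SOn 27 106 34 6 15 (Rg 15) LP15 ∧
    BOn 106 34 6 15 (Rg 15) 5480664 :=
  (left_sound (c := 15504) (by norm_num) (by norm_num) (by norm_num) (by norm_num) (by decide) (by norm_num)
    (by norm_num) rfl (by unfold num; decide) h).imp_right fun h1 => h1.1

end Vale.Agent.P181.H558.LP
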