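import Vale.Agent.P181.H558.LeftP

set_option autoImplicit false

/-!
# P181, `a = 6`: the plain left tables of the pairs `(6, b)`, `6 ≤ b ≤ 19`, small stride
(kernel part)

`LFb` is the table, `LGb` its digit tests; `S = 4 b + 23` for `b ≤ 15`, `S = 81, 85, 83, 87` for
`b = 16, 17, 18, 19`; `R = 2 b + 4`.
-/

noncomputable section

namespace Vale.Agent.P181.H558.LP

open Vale.Agent.P181.H788

def LF6 : Tb := P6 16 47 12032 752 6 9 10 10 11 11 12

def LG6 : Bool := tst 16 47 12032 752 6 9 10 10 11 11 1 1 2 3 5 12 45 2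

def LF7 : Tb := P6 18 51 16524 918 7 10 11 11 11 12 14

def LG7 : Bool := tst 18 51 16524 918 7 10 11 11 11 12 1 1 2 3 6 13 51 2

def LF8 : Tb := P6 19 55 20900 1100 8 11 11 12 12 13 15

def LG8 : Bool := tst 19 55 20900 1100 8 11 11 12 12 13 1 1 2 4 6 15 57 2

def LF9 : Tb := P6 20 59 25960 1298 9 11 12 12 13 14 16

def LG9 : Bool := tst 20 59 25960 1298 9 11 12 12 13 14 1 1 2 4 7 16 63 2

def LF10 : Tb := P6 22 63 33264 1512 10 12 13 13 13 14 18

def LG10 : Bool := tst 22 63 33264 1512 10 12 13 13 13 14 1 1 2 4 8 18 69 2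

def LF11 : Tb := P6 23 67 40066 1742 11 13 13 13 14 16 19

def LG11 : Bool := tst 23 67 40066 1742 11 13 13 13 14 16 1 1 2 5 9 19 75 2

def LF12 : Tb := P6 24 71 47712 1988 12 13 14 14 14 16 20

def LG12 : Bool := tst 24 71 47712 1988 12 13 14 14 14 16 1 1 2 5 9 21 81 2

def LF13 : Tb := P6 25 75 56250 2250 13 14 14 14 15 17 21

def LG13 : Bool := tst 25 75 56250 2250 13 14 14 14 15 17 1 1 2 5 10 22 87 2

def LF14 : Tb := P6 25 79 63200 2528 14 14 15 15 15 17 21

def LG14 : Bool := tst 25 79 63200 2528 14 14 15 15 15 17 1 1 2 5 10 24 93 2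

def LF15 : Tb := P6 27 83 76194 2822 15 14 15 15 16 18 23

def LG15 : Bool := tst 27 83 76194 2822 15 14 15 15 16 18 1 1 2 6 11 25 99 2

def LF16 : Tb := P6 27 81 78732 2916 16 15 15 16 16 19 23

def LG16 : Bool := tst 27 81 78732 2916 16 15 15 16 16 19 1 1 2 6 11 27 105 2

def LF17 : Tb := P6 29 85 93670 3230 17 15 16 16 16 19 25

def LG17 : Bool := tst 29 85 93670 3230 17 15 16 16 16 19 1 1 2 6 12 28 111 2

def LF18 : Tb := P6 29 83 96280 3320 18 16 16 16 17 19 25

def LG18 : Bool := tst 29 83 96280 3320 18 16 16 16 17 19 1 1 3 6 12 30 117 2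

def LF19 : Tb := P6 30 87 109620 3654 19 16 16 17 18 21 26

def LG19 : Bool := tst 30 87 109620 3654 19 16 16 17 18 21 1 1 3 7 13 31 123 2

end Vale.Agent.P181.H558.LP
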