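import Vale.Agent.P181.H558.LeftPS
import Vale.Agent.P181.H788.FLev

set_option autoImplicit false

/-!
# P181, `a = 6`: the left side, plain version, any stride (soundness)
-/

namespace Vale.Agent.P181.H558.LP

open Finset Vale.Agent.P181 Vale.Agent.P181.H280 Vale.Agent.P181.H605 Vale.Agent.P181.H788
open Vale.Agent.P181.H51 Vale.Agent.P181.H788.FL

/-- **Soundness of the levels of the left side, any stride.** -/
theorem left_levelsF {w S R b c : ℕ} {Rg : ℕ → ℕ → ℕ → Prop} (hd : Down Rg) (hS : 15 < S)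
    (hc : (b + 5).choose b = c) (T : ℕ → Tb) (v u : ℕ → ℕ)
    (h0 : ∀ x y z, T 0 x y z = row0 w S (w * (S * R)) x y z)
    (hrec : ∀ N, 0 < N → N ≤ 6 → ∀ x y z, T N x y z =
      dvs w (S * R) N (v N) (pie w S (w * (S * R)) b (T (N - 1)) x y z +
        ∑ k ∈ range (N - 1), ctr w S (w * (S * R)) (k + 2) b (T (N - (k + 2))) x y z))
    (hnum : ∀ N, 0 < N → N ≤ 6 → bp c u N < 2 ^ v N ∧ N * 2 ^ (v N + 1) ≤ 2 ^ w)
    (hu : ∀ N, 0 < N → N ≤ 5 → u N + 1 ≤ w)
    (htest : ∀ N, 0 < N → N ≤ 5 → ∀ x y z, z < y → y < x → Rg x y z →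
      dtest w (S * R) (u N) (T N x y z) = true) :
    Lv w S R 6 b Rg (T 6) (bp c u 6) ∧ bp c u 6 < 2 ^ (w - 1) := by
  have hS0 : 0 < S := by omega
  have hvw : ∀ N, 0 < N → N ≤ 6 → bp c u N < 2 ^ (w - 1) := by
    intro N h1 h2
    obtain ⟨h3, h4⟩ := hnum N h1 h2
    have h5 : 2 ^ (v N + 1) ≤ 2 ^ w := (Nat.le_mul_of_pos_left _ h1).trans h4
    have h6 : v N + 1 ≤ w := (Nat.pow_le_pow_iff_right (by norm_num)).1 h5
    exact lt_of_lt_of_le h3 (Nat.pow_le_pow_right (by norm_num) (by omega))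
  have hle : ∀ N, N ≤ 6 → ∀ x y z, T N x y z ≤ 2 ^ (w * (S * R)) := by
    intro N hN x y z
    rcases Nat.eq_zero_or_pos N with rfl | h5
    · rw [h0]
      exact row0_lt _ _ _ _ _ _
    · rw [hrec N h5 hN]
      exact (dvs_lt _ _ _ _ _).le
  have key : ∀ N, N ≤ 6 → SOn w S R N b Rg (T N) ∧ (N ≤ 5 → BF S (S * R) N b Rg (bd u N)) ∧
      (0 < N → BF S (S * R) N b Rg (bp c u N)) := by
    intro N
    induction N using Nat.strong_induction_on with
    | _ N ih =>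
      intro hN
      rcases Nat.eq_zero_or_pos N with rfl | hpos
      · refine ⟨?_, fun _ => ?_, fun h => absurd h (lt_irrefl _)⟩
        · intro x y z h1 h2 h3
          rw [h0]
          exact level0 w S R b Rg x y z h1 h2 h3
        · rw [bd, if_pos rfl]
          exact BF_zero hS _ b Rg
      · have hB : BF S (S * R) N b Rg (bp c u N) := by
          refine aprioriF hS0 hd hpos (bd u) (fun j hj => (ih j hj (by omega)).2.1 (by omega)) ?_
          rw [hc, bp]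
          have h1 := Nat.div_add_mod (c * ∑ j ∈ range N, bd u j) N
          have h2 := Nat.mod_lt (c * ∑ j ∈ range N, bd u j) hpos
          omega
        obtain ⟨h3, h4⟩ := hnum N hpos hN
        have hSOn : SOn w S R N b Rg (T N) :=
          levelF hS0 hd hpos T (fun j hj => (ih j hj (by omega)).1) (hle (N - 1) (by omega)) hB h3 h4
            (fun x y z _ _ _ => hrec N hpos hN x y z)
        refine ⟨hSOn, fun h5 => ?_, fun _ => hB⟩
        have h6 := btestF (v := u N) hS0 hSOn hB (hvw N hpos hN) (hu N hpos h5)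
          (htest N hpos h5)
        rwa [bd, if_neg (by omega)]
  exact ⟨⟨(key 6 le_rfl).1, (key 6 le_rfl).2.2 (by norm_num), hle 6 le_rfl⟩,
    hvw 6 (by norm_num) le_rfl⟩

/-- **Soundness of the plain left table, any stride.** -/
theorem left_lv {w S R K L b c v1 v2 v3 v4 v5 v6 u1 u2 u3 u4 u5 X1 C Z1 : ℕ}
    (hS : 15 < S) (hL : L = S * R) (hK : K = w * (S * R))
    (hc : (b + 5).choose b = c) (hX : 6 * b + 9 < 4 * X1) (hC : C = 6 * b + 9) (hZ : Z1 = 2)
    (hn : num c w v1 v2 v3 v4 v5 v6 u1 u2 u3 u4 u5)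
    (ht : tst w S K L b v1 v2 v3 v4 v5 u1 u2 u3 u4 u5 X1 C Z1 = true) :
    Lv w S R 6 b (Rg b) (P6 w S K L b v1 v2 v3 v4 v5 v6) (bp c (sq u1 u2 u3 u4 u5 0) 6) ∧
      bp c (sq u1 u2 u3 u4 u5 0) 6 < 2 ^ (w - 1) := by
  subst hL hK hC hZ
  obtain ⟨t1, ht⟩ := bc_true ht
  obtain ⟨t2, ht⟩ := bc_true ht
  obtain ⟨t3, ht⟩ := bc_true ht
  obtain ⟨t4, t5⟩ := bc_true ht
  refine left_levelsF (Rg_down b) hS hc (PT w S (w * (S * R)) (S * R) b v1 v2 v3 v4 v5 v6)
    (sq v1 v2 v3 v4 v5 v6) (sq u1 u2 u3 u4 u5 0) (fun _ _ _ => rfl) ?_ ?_ ?_ ?_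
  · intro N h1 h6 x y z
    obtain rfl | rfl | rfl | rfl | rfl | rfl : N = 1 ∨ N = 2 ∨ N = 3 ∨ N = 4 ∨ N = 5 ∨ N = 6 := by
      omega
    · rfl
    all_goals
      simp only [Nat.reduceSub, Finset.sum_range_succ, Finset.range_zero, Finset.sum_empty]
      rw [zero_add]
      rfl
  · intro N h1 h6
    exact hn.1 N (Finset.mem_Icc.2 ⟨h1, h6⟩)
  · intro N h1 h5
    exact hn.2 N (Finset.mem_Icc.2 ⟨h1, h5⟩)
  · intro N h1 h5 x y z hzy hyx hR
    have hx : x < X1 := by have := hR.2; omega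
    have hz : z < 2 := by have := hR.1; omega
    obtain rfl | rfl | rfl | rfl | rfl : N = 1 ∨ N = 2 ∨ N = 3 ∨ N = 4 ∨ N = 5 := by omega
    · exact allR_sound t1 hx hyx hzy hz hR.2
    · exact allR_sound t2 hx hyx hzy hz hR.2
    · exact allR_sound t3 hx hyx hzy hz hR.2
    · exact allR_sound t4 hx hyx hzy hz hR.2
    · exact allR_sound t5 hx hyx hzy hz hR.2

end Vale.Agent.P181.H558.LP
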