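import Vale.Agent.P181.H558.LeftPE
import Vale.Agent.P181.H558.LeftPF

set_option autoImplicit false

/-!
# P181, `a = 6`: the plain left tables of the pairs `(6, b)`, `6 ≤ b ≤ 19`, small stride
(soundness)
-/

namespace Vale.Agent.P181.H558.LP

open Vale.Agent.P181.H788 Vale.Agent.P181.H788.FL

theorem lv6 (h : LG6 = true) : Lv 16 47 16 6 6 (Rg 6) LF6 3773 :=
  (left_lv (c := 462) (by norm_num) (by norm_num) (by norm_num) (by decide) (by norm_num)
    (by norm_num) rfl (by unfold num; decide) h).1

theorem lv7 (h : LG7 = true) : Lv 18 51 18 6 7 (Rg 7) LF7 10692 :=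
  (left_lv (c := 792) (by norm_num) (by norm_num) (by norm_num) (by decide) (by norm_num)
    (by norm_num) rfl (by unfold num; decide) h).1

theorem lv8 (h : LG8 = true) : Lv 19 55 20 6 8 (Rg 8) LF8 19090 :=
  (left_lv (c := 1287) (by norm_num) (by norm_num) (by norm_num) (by decide) (by norm_num)
    (by norm_num) rfl (by unfold num; decide) h).1

theorem lv9 (h : LG9 = true) : Lv 20 59 22 6 9 (Rg 9) LF9 51051 :=
  (left_lv (c := 2002) (by norm_num) (by norm_num) (by norm_num) (by decide) (by norm_num)
    (by norm_num) rfl (by unfold num; decide) h).1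

theorem lv10 (h : LG10 = true) : Lv 22 63 24 6 10 (Rg 10) LF10 140640 :=
  (left_lv (c := 3003) (by norm_num) (by norm_num) (by norm_num) (by decide) (by norm_num)
    (by norm_num) rfl (by unfold num; decide) h).1

theorem lv11 (h : LG11 = true) : Lv 23 67 26 6 11 (Rg 11) LF11 402584 :=
  (left_lv (c := 4368) (by norm_num) (by norm_num) (by norm_num) (by decide) (by norm_num)
    (by norm_num) rfl (by unfold num; decide) h).1

theorem lv12 (h : LG12 = true) : Lv 24 71 28 6 12 (Rg 12) LF12 570327 :=
  (left_lv (c := 6188) (by norm_num) (by norm_num) (by norm_num) (by decide) (by norm_num)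
    (by norm_num) rfl (by unfold num; decide) h).1

theorem lv13 (h : LG13 = true) : Lv 25 75 30 6 13 (Rg 13) LF13 1520820 :=
  (left_lv (c := 8568) (by norm_num) (by norm_num) (by norm_num) (by decide) (by norm_num)
    (by norm_num) rfl (by unfold num; decide) h).1

theorem lv14 (h : LG14 = true) : Lv 25 79 32 6 14 (Rg 14) LF14 2063970 :=
  (left_lv (c := 11628) (by norm_num) (by norm_num) (by norm_num) (by decide) (by norm_num)
    (by norm_num) rfl (by unfold num; decide) h).1

theorem lv15 (h : LG15 = true) : Lv 27 83 34 6 15 (Rg 15) LF15 5480664 :=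
  (left_lv (c := 15504) (by norm_num) (by norm_num) (by norm_num) (by decide) (by norm_num)
    (by norm_num) rfl (by unfold num; decide) h).1

theorem lv16 (h : LG16 = true) : Lv 27 81 36 6 16 (Rg 16) LF16 7193371 :=
  (left_lv (c := 20349) (by norm_num) (by norm_num) (by norm_num) (by decide) (by norm_num)
    (by norm_num) rfl (by unfold num; decide) h).1

theorem lv17 (h : LG17 = true) : Lv 29 85 38 6 17 (Rg 17) LF17 18297741 :=
  (left_lv (c := 26334) (by norm_num) (by norm_num) (by norm_num) (by decide) (by norm_num)
    (by norm_num) rfl (by unfold num; decide) h).1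

theorem lv18 (h : LG18 = true) : Lv 29 83 40 6 18 (Rg 18) LF18 23402879 :=
  (left_lv (c := 33649) (by norm_num) (by norm_num) (by norm_num) (by decide) (by norm_num)
    (by norm_num) rfl (by unfold num; decide) h).1

theorem lv19 (h : LG19 = true) : Lv 30 87 42 6 19 (Rg 19) LF19 59030972 :=
  (left_lv (c := 42504) (by norm_num) (by norm_num) (by norm_num) (by decide) (by norm_num)
    (by norm_num) rfl (by unfold num; decide) h).1

end Vale.Agent.P181.H558.LP
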