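import Vale.Agent.P181.H558.Start6
import Vale.Agent.P181.H788.F78
import Vale.Agent.P181.H788.F9

set_option autoImplicit false

/-!
# P181, a = 6: the pairs `(6, 7)`, `(6, 8)` and `(6, 9)`
-/

namespace Vale.Agent.P181.H558

open Vale.Agent.P181 Vale.Agent.P181.H280

theorem short7 : Short 7 := fun lam h1 h2 h3 =>
  H788.K7.mult lam h1 h2 (by simp [maxLast] at h3; omega)

theorem short8 : Short 8 := fun lam h1 h2 h3 =>
  H788.K8.mult lam h1 h2 (by simp [maxLast] at h3; omega)

theorem short9 : Short 9 := fun lam h1 h2 h3 =>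
  H788.K9.mult lam h1 h2 (by simp [maxLast] at h3; omega)

end Vale.Agent.P181.H558
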