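import Vale.Agent.P181.H558.Reduce6

set_option autoImplicit false

/-!
# P181, a = 6: the reductions for all `b` from a starting value on

The pairs `(6, b)` with `b ≥ s`, `12 ≤ s ≤ 14`, from the pairs `(6, 8)`, `(6, 9)`, `(6, 10)`, the
pairs with `b ≥ B` and the shapes in `Need3 s b`, `s ≤ b < B`. Nothing about `b = 11` is used.
-/

namespace Vale.Agent.P181.H558

universe u

open Vale.Agent.P181 Vale.Agent.P181.H280 Vale.Agent.P181.H54

/-- The shapes with a short last row for the pair `(6, b)` satisfy Foulkes' inequality. -/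
def Short (b : ℕ) : Prop :=
  ∀ lam : Fin 6 → ℕ, Antitone lam → ∑ i, lam i = 6 * b → lam 5 ≤ maxLast b → Fo b lam

lemma fo_of_short {b : ℕ} (h7 : 7 ≤ b) (h11 : b ≤ 11) (h : Short b) (lam : Fin 6 → ℕ) :
    Fo b lam := by
  by_cases h0 : plethMult 6 b 6 lam = 0
  · show plethMult 6 b 6 lam ≤ _
    rw [h0]
    exact Nat.zero_le _
  obtain ⟨hanti, hsum, -⟩ := H530.zero_stmt 6 b 6 lam h0
  by_cases h5 : lam 5 ≤ maxLast b
  · exact h lam hanti hsum h5
  · exact fo_tall lam h7 hanti (by omega) (fun h => by omega) (fun mu h => by omega)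

/-- The shapes which have to be checked for the pair `(6, b)` if the checks start at `b = s`. -/
def Need3 (s b : ℕ) (lam : Fin 6 → ℕ) : Prop :=
  Antitone lam ∧ ∑ i, lam i = 6 * b ∧ (if b = s then 11 else b) ≤ lam 1 ∧ 2 ≤ lam 2 ∧
    b ≤ lam 2 + lam 3 + lam 4 + lam 5 + 4 ∧
    (lam 5 ≤ maxLast b ∨ (b = 17 ∧ 6 ≤ lam 5 ∧ lam 5 ≤ 7)) ∧ (b = 12 → lam 4 ≤ 1)

lemma fo_propagate_iter {b : ℕ} (k : ℕ) (lam : Fin 6 → ℕ) (h1 : ∀ i, i ≠ 0 → lam i ≤ b)
    (h6 : 6 * k ≤ lam 0)
    (h : Fo b (fun i => lam i - if i = 0 then 6 * k else 0)) : Fo (b + k) lam := by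
  have h2 := (plethMult_stab_iter 6 b (fun i : Fin 6 => lam i - if i = 0 then 6 * k else 0)
    (fun i hi => by
      show lam i - (if i = 0 then 6 * k else 0) ≤ b
      rw [if_neg hi, Nat.sub_zero]
      exact h1 i hi) k).trans (h.trans (plethMult_mono_iter 6 b _ k))
  have h3 : addFirst (fun i : Fin 6 => lam i - if i = 0 then 6 * k else 0) (6 * k) = lam := by
    funext i
    show (lam i - if i = 0 then 6 * k else 0) + (if i = 0 then 6 * k else 0) = lam i
    by_cases hi : i = 0
    · subst hi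
      simp only [if_true]
      omega
    · simp only [hi, if_false]
      omega
  rw [h3] at h2
  exact h2

lemma fo_column8 {b : ℕ} (lam : Fin 6 → ℕ) (h8 : ∀ i, 8 ≤ lam i)
    (h : Fo b (fun i => lam i - 8)) : Fo (b + 8) lam := by
  refine TQ.col_sub (a := 6) (b := b) (c := 8) (n := 6) (by omega) le_rfl ⟨4, rfl⟩ (by omega) lam
    (fun i _ => h8 i) ?_
  have h1 : (fun i : Fin 6 => lam i - if (i : ℕ) < 6 then 8 else 0) = fun i => lam i - 8 := by
    funext i
    rw [if_pos i.2]
  rw [h1]
  exact h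

/-- Tall shapes for `b ≥ 12`: the pair `(6, 11)` is not used. -/
lemma fo_tall2 {b : ℕ} (lam : Fin 6 → ℕ) (hb : 12 ≤ b) (hanti : Antitone lam)
    (h : maxLast b < lam 5) (h17 : b ≠ 17)
    (ih : ∀ mu : Fin 6 → ℕ, b - 6 = 8 ∨ b - 6 = 9 ∨ b - 6 = 10 ∨ 20 ≤ b → Fo (b - 6) mu) :
    Fo b lam := by
  have hall : ∀ i : Fin 6, lam 5 ≤ lam i := fun i => hanti (Fin.le_last i)
  by_cases h12 : b = 12
  · subst h12
    simp [maxLast] at h
    exact plethMult_le (a := 6) (q := 2) (n := 6) (by omega) le_rfl le_rfl lam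
      (fun i _ => by have := hall i; omega)
  by_cases h13 : b = 13
  · subst h13
    simp [maxLast] at h
    refine TQ.tallF 6 13 6 (by omega) (by omega) le_rfl lam (by norm_num) (Or.inr ⟨by norm_num,
      by omega⟩) (fun i _ => ?_) (Or.inl (by norm_num))
    have := hall i
    norm_num
    omega
  by_cases h18 : b = 18
  · subst h18
    simp [maxLast] at h
    exact plethMult_le (a := 6) (q := 3) (n := 6) (by omega) (by omega) le_rfl lam
      (fun i _ => by have := hall i; omega)
  by_cases h19 : b = 19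
  · subst h19
    simp [maxLast] at h
    refine TQ.tallF 6 19 6 (by omega) (by omega) le_rfl lam (by norm_num) (Or.inr ⟨by norm_num,
      by omega⟩) (fun i _ => ?_) (Or.inl (by norm_num))
    have := hall i
    norm_num
    omega
  · have h7 : b ≠ 7 := by omega
    have h8 : b ≠ 8 := by omega
    have h9 : b ≠ 9 := by omega
    simp only [maxLast, h7, h8, h9, h12, h13, h18, h19, if_false, or_self] at h
    have h1 := fo_column (b := b - 6) lam (fun i => (show 6 ≤ lam 5 by omega).trans (hall i))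
      (ih _ (by omega))
    rwa [Nat.sub_add_cancel (by omega)] at h1

/-- **Reduction for `a = 6`, `dim V = 6`, starting at `b = s`.** -/
theorem fo_start (s B : ℕ) (hs : 12 ≤ s) (hs' : s ≤ 14) (h8 : Short 8) (h9 : Short 9)
    (h10 : Short 10)
    (hB : ∀ b, B ≤ b → ∀ lam, Antitone lam → ∑ i, lam i = 6 * b → Fo b lam)
    (H : ∀ b, s ≤ b → b < B → ∀ lam, Need3 s b lam → Fo b lam) :
    ∀ b, s ≤ b → ∀ lam, Fo b lam := by
  have f8 := fo_of_short (by omega) (by omega) h8
  have f9 := fo_of_short (by omega) (by omega) h9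
  have f10 := fo_of_short (by omega) (by omega) h10
  intro b
  induction b using Nat.strong_induction_on with
  | _ b ih =>
    intro hsb lam
    by_cases h0 : plethMult 6 b 6 lam = 0
    · show plethMult 6 b 6 lam ≤ _
      rw [h0]
      exact Nat.zero_le _
    obtain ⟨hanti, hsum, -⟩ := H530.zero_stmt 6 b 6 lam h0
    by_cases hbB : B ≤ b
    · exact hB b hbB lam hanti hsum
    have hs0 : lam 0 + lam 1 + lam 2 + lam 3 + lam 4 + lam 5 = 6 * b := by
      rw [← hsum, Fin.sum_univ_six]
    have a01 : lam 1 ≤ lam 0 := hanti (by decide)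
    have a12 : lam 2 ≤ lam 1 := hanti (by decide)
    have a23 : lam 3 ≤ lam 2 := hanti (by decide)
    have a34 : lam 4 ≤ lam 3 := hanti (by decide)
    have a45 : lam 5 ≤ lam 4 := hanti (by decide)
    have h1 : ∀ i, i ≠ 0 → lam i ≤ lam 1 := fun i hi => hanti (by
      rw [Fin.le_def]
      show 1 ≤ (i : ℕ)
      have : (i : ℕ) ≠ 0 := fun h => hi (Fin.ext h)
      omega)
    by_cases c1 : (if b = s then 11 else b) ≤ lam 1
    · by_cases c2 : 2 ≤ lam 2
      · by_cases c3 : b ≤ lam 2 + lam 3 + lam 4 + lam 5 + 4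
        · by_cases c4 : lam 5 ≤ maxLast b ∨ (b = 17 ∧ 6 ≤ lam 5 ∧ lam 5 ≤ 7)
          · by_cases c5 : b = 12 → lam 4 ≤ 1
            · exact H b hsb (by omega) lam ⟨hanti, hsum, c1, c2, c3, c4, c5⟩
            · push Not at c5
              obtain ⟨rfl, c5⟩ := c5
              exact fo_near lam hanti (by omega)
          · push Not at c4
            by_cases h17 : b = 17
            · subst h17
              have h3 := c4.1
              have h4 := c4.2 rfl
              simp [maxLast] at h3
              exact fo_column8 (b := 9) lam (fun i => (show 8 ≤ lam 5 by omega).trans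
                (hanti (Fin.le_last i))) (f9 _)
            refine fo_tall2 lam (by omega) hanti c4.1 h17 (fun mu h => ?_)
            rcases h with h | h | h | h
            · rw [h]
              exact f8 mu
            · rw [h]
              exact f9 mu
            · rw [h]
              exact f10 mu
            · exact ih (b - 6) (by omega) (by omega) mu
        · refine H536.plethMult_le (N := 6 - 1) (by omega) (by omega) lam ?_
          simp only [Fin.sum_univ_four]
          show lam 2 + lam 3 + lam 4 + lam 5 + _ ≤ _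
          omega
      · have h2 : ∀ i : Fin 4, lam i.succ.succ ≤ 1 := fun i =>
          (hanti (show (2 : Fin 6) ≤ i.succ.succ from by
            rw [Fin.le_def]; simp only [Fin.val_succ]; show 2 ≤ _; omega)).trans (by omega)
        exact (H534.plethMult_eq (n := 4) lam h2).le
    · by_cases hbs : b = s
      · rw [if_pos hbs] at c1
        obtain ⟨k, rfl⟩ : ∃ k, b = 10 + k := ⟨b - 10, by omega⟩
        exact fo_propagate_iter k lam (fun i hi => (h1 i hi).trans (by omega)) (by omega) (f10 _)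
      · rw [if_neg hbs] at c1
        obtain ⟨b', rfl⟩ : ∃ b', b = b' + 1 := ⟨b - 1, by omega⟩
        exact fo_propagate_iter 1 lam (fun i hi => (h1 i hi).trans (by omega)) (by omega)
          (ih b' (by omega) (by omega) _)

/-- All `V = ℂ^n`. -/
theorem start_all (s B : ℕ) (hs : 12 ≤ s) (hs' : s ≤ 14) (h8 : Short 8) (h9 : Short 9)
    (h10 : Short 10)
    (hB : ∀ b, B ≤ b → ∀ lam, Antitone lam → ∑ i, lam i = 6 * b → Fo b lam)
    (H : ∀ b, s ≤ b → b < B → ∀ lam, Need3 s b lam → Fo b lam) (b : ℕ) (hb : s ≤ b) (n : ℕ)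
    (lam : Fin n → ℕ) : plethMult 6 b n lam ≤ plethMult b 6 n lam :=
  T7.all_n H530.pad_stmt H530.zero_stmt
    (fun mu _ _ => fo_start s B hs hs' h8 h9 h10 hB H b hb mu) n lam

/-- The literal form of Foulkes' conjecture for the pairs `(6, b)`, `b ≥ s`. -/
theorem start_inj (s B : ℕ) (hs : 12 ≤ s) (hs' : s ≤ 14) (h8 : Short 8) (h9 : Short 9)
    (h10 : Short 10)
    (hB : ∀ b, B ≤ b → ∀ lam, Antitone lam → ∑ i, lam i = 6 * b → Fo b lam)
    (H : ∀ b, s ≤ b → b < B → ∀ lam, Need3 s b lam → Fo b lam) (b : ℕ) (hb : s ≤ b) :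
    H530.FoulkesInjection.{u} 6 b :=
  H530.foulkesInjection (fun mu _ _ => fo_start s B hs hs' h8 h9 h10 hB H b hb mu)

/-- The pairs `(6, b)` with `7 ≤ b ≤ 11` from the shapes with a short last row. -/
theorem short_inj {b : ℕ} (h7 : 7 ≤ b) (h11 : b ≤ 11) (h : Short b) :
    H530.FoulkesInjection.{u} 6 b :=
  H530.foulkesInjection (fun mu _ _ => fo_of_short h7 h11 h mu)

end Vale.Agent.P181.H558
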