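import Vale.Agent.P181.H248.RhsMul
import Mathlib.Combinatorics.Additive.CauchyDavenport

set_option autoImplicit false

/-!
# P181: superadditivity of the right-hand side

Leading exponents in a polynomial ring: for finite-dimensional `S` the number of leading exponents
of nonzero elements of `S` is `dim S`; so `dim T ≥ dim S + dim S' - 1` when `T` contains all the
products.
-/

namespace Vale.Agent.P181.H558

open MvPolynomial Pointwise

section Gen

variable {s : Type*} [LinearOrder s]

/-- `d` is the leading exponent of `f`. -/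
def IsLead (f : MvPolynomial s ℂ) (d : s →₀ ℕ) : Prop :=
  coeff d f ≠ 0 ∧ ∀ e, coeff e f ≠ 0 → toLex e ≤ toLex d

lemma exists_lead {f : MvPolynomial s ℂ} (hf : f ≠ 0) : ∃ d, IsLead f d := by
  classical
  obtain ⟨d, hd, hmax⟩ := Finset.exists_max_image f.support (fun d => toLex d)
    (Finset.nonempty_iff_ne_empty.2 fun h => hf (support_eq_empty.1 h))
  exact ⟨d, mem_support_iff.1 hd, fun e he => hmax e (mem_support_iff.2 he)⟩

lemma IsLead.mul {f g : MvPolynomial s ℂ} {d e : s →₀ ℕ} (hf : IsLead f d) (hg : IsLead g e) :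
    IsLead (f * g) (d + e) := by
  classical
  have key : ∀ x y : s →₀ ℕ, coeff x f ≠ 0 → coeff y g ≠ 0 → toLex (x + y) ≤ toLex (d + e) ∧
      (x + y = d + e → x = d ∧ y = e) := by
    intro x y hx hy
    have h1 := hf.2 x hx
    have h2 := hg.2 y hy
    refine ⟨by rw [toLex_add, toLex_add]; exact add_le_add h1 h2, fun h => ?_⟩
    have h3 : toLex x + toLex y = toLex d + toLex e := by rw [← toLex_add, ← toLex_add, h]
    have h4 : toLex x = toLex d := by
      by_contra hne
      have := add_lt_add_of_lt_of_le (lt_of_le_of_ne h1 hne) h2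
      exact absurd h3 this.ne
    have h5 : x = d := toLex_inj.1 h4
    subst h5
    exact ⟨rfl, add_left_cancel h⟩
  constructor
  · rw [coeff_mul, Finset.sum_eq_single (d, e)]
    · exact mul_ne_zero hf.1 hg.1
    · rintro ⟨x, y⟩ hxy hne
      rw [Finset.HasAntidiagonal.mem_antidiagonal] at hxy
      by_contra h
      have hx : coeff x f ≠ 0 := left_ne_zero_of_mul h
      have hy : coeff y g ≠ 0 := right_ne_zero_of_mul h
      obtain ⟨rfl, rfl⟩ := (key x y hx hy).2 hxy
      exact hne rfl
    · intro h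
      have h6 : (d, e) ∈ Finset.HasAntidiagonal.antidiagonal (d + e) :=
        Finset.HasAntidiagonal.mem_antidiagonal.2 (Eq.refl (d + e))
      exact absurd h6 h
  · intro z hz
    rw [coeff_mul] at hz
    obtain ⟨⟨x, y⟩, hxy, hne⟩ := Finset.exists_ne_zero_of_sum_ne_zero hz
    rw [Finset.HasAntidiagonal.mem_antidiagonal] at hxy
    rw [← hxy]
    exact (key x y (left_ne_zero_of_mul hne) (right_ne_zero_of_mul hne)).1

/-- Elements with different leading exponents are independent. -/
lemma card_le_of_lead {T : Submodule ℂ (MvPolynomial s ℂ)} [Module.Finite ℂ T]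
    (X : Finset (s →₀ ℕ)) (hX : ∀ d ∈ X, ∃ f ∈ T, IsLead f d) :
    X.card ≤ Module.finrank ℂ T := by
  classical
  choose f hf hl using hX
  let g : X → T := fun d => ⟨f d.1 d.2, hf d.1 d.2⟩
  have hg : LinearIndependent ℂ g := by
    rw [linearIndependent_iff']
    intro t c hsum
    by_contra hne
    push Not at hne
    obtain ⟨i, hi, hci⟩ := hne
    obtain ⟨m, hm, hmax⟩ := Finset.exists_max_image (t.filter fun i => c i ≠ 0)
      (fun i => toLex i.1) ⟨i, Finset.mem_filter.2 ⟨hi, hci⟩⟩
    rw [Finset.mem_filter] at hm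
    have h1 : ∑ i ∈ t, c i • f i.1 i.2 = 0 := by
      have h0 := congrArg Subtype.val hsum
      rw [Submodule.coe_zero, AddSubmonoidClass.coe_finsetSum] at h0
      rw [← h0]
      rfl
    have h2 : coeff m.1 (∑ i ∈ t, c i • f i.1 i.2) = c m * coeff m.1 (f m.1 m.2) := by
      rw [coeff_sum, Finset.sum_eq_single m]
      · rw [coeff_smul, smul_eq_mul]
      · intro j hj hjm
        rw [coeff_smul, smul_eq_mul]
        by_contra h
        have hcj : c j ≠ 0 := left_ne_zero_of_mul h
        have h3 := (hl j.1 j.2).2 m.1 (right_ne_zero_of_mul h)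
        have h4 := hmax j (Finset.mem_filter.2 ⟨hj, hcj⟩)
        exact hjm (Subtype.ext (toLex_inj.1 (le_antisymm h4 h3)))
      · intro h
        exact absurd hm.1 h
    rw [h1, coeff_zero] at h2
    rcases mul_eq_zero.1 h2.symm with h | h
    · exact hm.2 h
    · exact (hl m.1 m.2).1 h
  have h := hg.fintype_card_le_finrank
  rwa [Fintype.card_coe] at h

/-- A finite-dimensional space has at least `dim` leading exponents. -/
lemma exists_leads (T : Submodule ℂ (MvPolynomial s ℂ)) [Module.Finite ℂ T] :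
    ∃ X : Finset (s →₀ ℕ), (∀ d ∈ X, ∃ f ∈ T, IsLead f d) ∧ Module.finrank ℂ T ≤ X.card := by
  classical
  have hfin : {d : s →₀ ℕ | ∃ f ∈ T, IsLead f d}.Finite := by
    by_contra hinf
    obtain ⟨X, hX, hc⟩ := Set.Infinite.exists_subset_card_eq hinf (Module.finrank ℂ T + 1)
    have := card_le_of_lead (T := T) X (fun d hd => hX hd)
    omega
  refine ⟨hfin.toFinset, fun d hd => (Set.Finite.mem_toFinset hfin).1 hd, ?_⟩
  let L : T →ₗ[ℂ] (hfin.toFinset → ℂ) :=
    { toFun := fun f d => coeff d.1 (f : MvPolynomial s ℂ)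
      map_add' := fun x y => by
        funext d
        simp only [Submodule.coe_add, coeff_add, Pi.add_apply]
      map_smul' := fun c x => by
        funext d
        simp only [Submodule.coe_smul, coeff_smul, Pi.smul_apply, RingHom.id_apply] }
  have hL : Function.Injective L := by
    rw [injective_iff_map_eq_zero]
    intro x hx
    by_contra hne
    have hx0 : (x : MvPolynomial s ℂ) ≠ 0 := fun h => hne (Subtype.ext h)
    obtain ⟨d, hd⟩ := exists_lead hx0
    have h1 := congrFun hx ⟨d, (Set.Finite.mem_toFinset hfin).2 ⟨x, x.2, hd⟩⟩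
    exact hd.1 h1
  have h := LinearMap.finrank_le_finrank_of_injective hL
  rwa [Module.finrank_fintype_fun_eq_card, Fintype.card_coe] at h

/-- **Superadditivity** of dimensions in a polynomial ring. -/
theorem finrank_super {S S' T : Submodule ℂ (MvPolynomial s ℂ)}
    [Module.Finite ℂ T] (hS : 1 ≤ Module.finrank ℂ S) (hS' : 1 ≤ Module.finrank ℂ S')
    (h : ∀ x ∈ S, ∀ y ∈ S', x * y ∈ T) :
    Module.finrank ℂ S + Module.finrank ℂ S' ≤ Module.finrank ℂ T + 1 := by
  classical
  have : Module.Finite ℂ S := Module.finite_of_finrank_pos hS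
  have : Module.Finite ℂ S' := Module.finite_of_finrank_pos hS'
  obtain ⟨X, hX, hXc⟩ := exists_leads S
  obtain ⟨Y, hY, hYc⟩ := exists_leads S'
  have hXn : X.Nonempty := Finset.card_pos.1 (by omega)
  have hYn : Y.Nonempty := Finset.card_pos.1 (by omega)
  let X' : Finset (Lex (s →₀ ℕ)) := X.map ⟨toLex, toLex.injective⟩
  let Y' : Finset (Lex (s →₀ ℕ)) := Y.map ⟨toLex, toLex.injective⟩
  have h1 : X'.card + Y'.card - 1 ≤ (X' + Y').card := by
    have h0 := cauchy_davenport_add_of_linearOrder_isCancelAdd (s := X') (t := Y')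
      (by simpa only [X', Finset.map_nonempty] using hXn)
      (by simpa only [Y', Finset.map_nonempty] using hYn)
    convert h0
  have hc1 : X'.card = X.card := Finset.card_map _
  have hc2 : Y'.card = Y.card := Finset.card_map _
  let Z : Finset (s →₀ ℕ) := (X' + Y').map ⟨ofLex, ofLex.injective⟩
  have hZ : Z.card = (X' + Y').card := Finset.card_map _
  have h2 := card_le_of_lead (T := T) Z (by
    intro d hd
    rw [Finset.mem_map] at hd
    obtain ⟨z, hz, rfl⟩ := hd
    obtain ⟨x, hx, y, hy, rfl⟩ := Finset.mem_add.1 hz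
    rw [Finset.mem_map] at hx hy
    obtain ⟨x, hx, rfl⟩ := hx
    obtain ⟨y, hy, rfl⟩ := hy
    obtain ⟨f, hf, hfl⟩ := hX x hx
    obtain ⟨g, hg, hgl⟩ := hY y hy
    exact ⟨f * g, h f hf g hg, hfl.mul hgl⟩)
  omega

end Gen

open Vale.Agent.P181 Vale.Agent.P181.H280 Vale.Agent.P181.Z.H592

/-- **(R1)** Superadditivity of the right-hand side: `M(b + k, a; mu + nu) + 1` is at least
`M(b, a; mu) + M(k, a; nu)` if both multiplicities are positive. -/
theorem plethMult_super (n a b k : ℕ) (mu nu : Fin n → ℕ) (h1 : 1 ≤ plethMult b a n mu)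
    (h2 : 1 ≤ plethMult k a n nu) :
    plethMult b a n mu + plethMult k a n nu ≤
      plethMult (b + k) a n (fun i => mu i + nu i) + 1 := by
  have h3 : 1 ≤ plethMult (b + k) a n (fun i => mu i + nu i) :=
    h1.trans (H248.rhsMul n a b k mu nu h2)
  rw [plethMult_eq_HA] at h1 h2 h3 ⊢
  rw [plethMult_eq_HA, plethMult_eq_HA]
  have : Module.Finite ℂ (HA n (b + k) a fun i => mu i + nu i) :=
    Module.finite_of_finrank_pos h3
  let _ : LinearOrder (Fin n → ℕ) :=
    LinearOrder.lift' (toLex : (Fin n → ℕ) → Lex (Fin n → ℕ)) toLex.injective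
  exact finrank_super h1 h2 (fun x hx y hy => mul_mem_HA hx hy)

end Vale.Agent.P181.H558
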